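import Mathlib

/-!
# Series in noncommuting variables and the moment-cumulant substitution

A series is its coefficient function on words. `sub g f` substitutes `x * g` for every
variable `x` in `f`, so moments and free cumulants are related by `M = sub M (cum M)`.
-/

namespace Vale.Agent.P087.Cum

open Finset

noncomputable section

variable {α : Type*} {R : Type*} [CommRing R]

/-- Left derivative. -/
def der (k : α) (f : List α → R) : List α → R := fun u => f (k :: u)

/-- The unit series. -/
def one : List α → R
  | [] => 1
  | _ :: _ => 0

/-- Product of series. -/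
def conv : (List α → R) → (List α → R) → List α → R
  | f, h, [] => f [] * h []
  | f, h, k :: w => f [] * h (k :: w) + conv (der k f) h w

/-- Auxiliary for `sub`: `a` is the gap read so far. -/
def subGo (g : List α → R) : (List α → R) → List α → List α → R
  | f, a, [] => g a * f []
  | f, a, x :: w => subGo g f (a ++ [x]) w + g a * subGo g (der x f) [] w

/-- Substitute `x * g` for each variable `x` in `f`. -/
def sub (g f : List α → R) : List α → R
  | [] => f []
  | k :: w => subGo g (der k f) [] w

omit [CommRing R] in
@[simp] theorem der_apply (k : α) (f : List α → R) (u : List α) : der k f u = f (k :: u) := rfl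
@[simp] theorem one_nil : (one : List α → R) [] = 1 := rfl
@[simp] theorem one_cons (k : α) (w : List α) : one (k :: w) = (0 : R) := rfl
theorem conv_nil (f h : List α → R) : conv f h [] = f [] * h [] := rfl
theorem conv_cons (f h : List α → R) (k : α) (w : List α) :
    conv f h (k :: w) = f [] * h (k :: w) + conv (der k f) h w := rfl
@[simp] theorem sub_nil (g f : List α → R) : sub g f [] = f [] := rfl

theorem subGo_eq (g : List α → R) : ∀ (w : List α) (f : List α → R) (a : List α),
    subGo g f a w = conv (fun u => g (a ++ u)) (sub g f) w
  | [], f, a => by simp [subGo, conv_nil]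
  | x :: w, f, a => by
      rw [subGo, subGo_eq g w, conv_cons, sub, add_comm]
      simp only [List.append_nil, List.append_assoc]
      rfl

theorem sub_cons (g f : List α → R) (k : α) (w : List α) :
    sub g f (k :: w) = conv g (sub g (der k f)) w := by
  rw [sub, subGo_eq]
  rfl

theorem conv_congr : ∀ (w : List α) {f f' h h' : List α → R},
    (∀ u, u.length ≤ w.length → f u = f' u) → (∀ u, u.length ≤ w.length → h u = h' u) →
    conv f h w = conv f' h' w
  | [], f, f', h, h', hf, hh => by simp [conv_nil, hf [] le_rfl, hh [] le_rfl]
  | k :: w, f, f', h, h', hf, hh => by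
      rw [conv_cons, conv_cons, hf [] (Nat.zero_le _), hh _ le_rfl,
        conv_congr w (f := der k f) (f' := der k f') (h := h) (h' := h')
          (fun u hu => hf _ (by simpa using hu)) fun u hu => hh _ (by simp; omega)]

theorem conv_congr_left (w : List α) {f f' : List α → R} (h : List α → R)
    (hf : ∀ u, u.length ≤ w.length → f u = f' u) : conv f h w = conv f' h w :=
  conv_congr w hf fun _ _ => rfl

theorem conv_congr_right (w : List α) (f : List α → R) {h h' : List α → R}
    (hh : ∀ u, u.length ≤ w.length → h u = h' u) : conv f h w = conv f h' w :=
  conv_congr w (fun _ _ => rfl) hh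

theorem conv_lin_right : ∀ (w : List α) (f h h' : List α → R) (c : R),
    conv f (fun u => c * h u + h' u) w = c * conv f h w + conv f h' w
  | [], f, h, h', c => by simp [conv_nil]; ring
  | k :: w, f, h, h', c => by rw [conv_cons, conv_cons, conv_cons, conv_lin_right w]; ring

theorem conv_lin_left : ∀ (w : List α) (f f' h : List α → R) (c : R),
    conv (fun u => c * f u + f' u) h w = c * conv f h w + conv f' h w
  | [], f, f', h, c => by simp [conv_nil]; ring
  | k :: w, f, f', h, c => by
      rw [conv_cons, conv_cons, conv_cons,
        show der k (fun u => c * f u + f' u) = fun u => c * der k f u + der k f' u from rfl,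
        conv_lin_left w]
      ring

theorem conv_zero_left (h : List α → R) : ∀ w : List α, conv (fun _ => 0) h w = 0
  | [] => by simp [conv_nil]
  | k :: w => by
      rw [conv_cons, show der k (fun _ : List α => (0 : R)) = fun _ => 0 from rfl, conv_zero_left h w]
      simp

theorem one_conv (h : List α → R) : ∀ w, conv one h w = h w
  | [] => by simp [conv_nil]
  | k :: w => by
      rw [conv_cons, show der k (one : List α → R) = fun _ => 0 from rfl, conv_zero_left]
      simp

theorem conv_one : ∀ (w : List α) (f : List α → R), conv f one w = f w
  | [], f => by simp [conv_nil]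
  | k :: w, f => by simp [conv_cons, conv_one w]

theorem conv_assoc : ∀ (w : List α) (f g h : List α → R),
    conv (conv f g) h w = conv f (conv g h) w
  | [], f, g, h => by simp [conv_nil]; ring
  | k :: w, f, g, h => by
      rw [conv_cons, conv_cons,
        show der k (conv f g) = fun u => f [] * der k g u + conv (der k f) g u from rfl,
        conv_lin_left, conv_assoc w, conv_cons g h]
      simp [conv_nil]
      ring

theorem sub_congr : ∀ (n : ℕ) (w : List α), w.length ≤ n → ∀ {g g' f f' : List α → R},
    (∀ u, u.length < w.length → g u = g' u) → (∀ u, u.length ≤ w.length → f u = f' u) →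
    sub g f w = sub g' f' w := by
  intro n
  induction n with
  | zero =>
    intro w hw g g' f f' _ hf
    obtain rfl := List.eq_nil_of_length_eq_zero (Nat.le_zero.1 hw)
    exact hf [] le_rfl
  | succ n ih =>
    intro w hw g g' f f' hg hf
    cases w with
    | nil => exact hf [] le_rfl
    | cons k w =>
      simp only [List.length_cons] at hw hg hf
      rw [sub_cons, sub_cons]
      exact conv_congr w (fun u hu => hg u (by omega)) fun u hu =>
        ih u (by omega) (fun v hv => hg v (by omega)) fun v hv => hf _ (by simp; omega)

theorem sub_lin : ∀ (n : ℕ) (w : List α), w.length ≤ n → ∀ (g f f' : List α → R) (c : R),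
    sub g (fun u => c * f u + f' u) w = c * sub g f w + sub g f' w := by
  intro n
  induction n with
  | zero =>
    intro w hw g f f' c
    obtain rfl := List.eq_nil_of_length_eq_zero (Nat.le_zero.1 hw)
    simp
  | succ n ih =>
    intro w hw g f f' c
    cases w with
    | nil => simp
    | cons k w =>
      simp only [List.length_cons] at hw
      rw [sub_cons, sub_cons, sub_cons, ← conv_lin_right]
      exact conv_congr_right w g fun u hu => ih u (by omega) g (der k f) (der k f') c

theorem sub_conv : ∀ (n : ℕ) (w : List α), w.length ≤ n → ∀ g f h : List α → R,
    sub g (conv f h) w = conv (sub g f) (sub g h) w := by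
  intro n
  induction n with
  | zero =>
    intro w hw g f h
    obtain rfl := List.eq_nil_of_length_eq_zero (Nat.le_zero.1 hw)
    simp [conv_nil]
  | succ n ih =>
    intro w hw g f h
    cases w with
    | nil => simp [conv_nil]
    | cons k w =>
      simp only [List.length_cons] at hw
      rw [sub_cons, conv_cons, sub_nil, sub_cons,
        show der k (sub g f) = conv g (sub g (der k f)) from funext fun u => sub_cons g f k u,
        conv_assoc, ← conv_lin_right]
      refine conv_congr_right w g fun u hu => ?_
      rw [← ih u (by omega) g (der k f) h]
      exact sub_lin n u (by omega) g (der k h) (conv (der k f) h) (f [])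

theorem sub_sub : ∀ (n : ℕ) (w : List α), w.length ≤ n → ∀ g h f : List α → R,
    sub g (sub h f) w = sub (conv g (sub g h)) f w := by
  intro n
  induction n with
  | zero =>
    intro w hw g h f
    obtain rfl := List.eq_nil_of_length_eq_zero (Nat.le_zero.1 hw)
    simp
  | succ n ih =>
    intro w hw g h f
    cases w with
    | nil => simp
    | cons k w =>
      simp only [List.length_cons] at hw
      rw [sub_cons, sub_cons,
        show der k (sub h f) = conv h (sub h (der k f)) from funext fun u => sub_cons h f k u,
        conv_assoc]
      refine conv_congr_right w g fun u hu => ?_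
      rw [sub_conv u.length u le_rfl g h]
      exact conv_congr_right u _ fun v hv => ih v (by omega) g h (der k f)

theorem sub_one_left : ∀ (n : ℕ) (w : List α), w.length ≤ n → ∀ f : List α → R,
    sub one f w = f w := by
  intro n
  induction n with
  | zero =>
    intro w hw f
    obtain rfl := List.eq_nil_of_length_eq_zero (Nat.le_zero.1 hw)
    simp
  | succ n ih =>
    intro w hw f
    cases w with
    | nil => simp
    | cons k w =>
      simp only [List.length_cons] at hw
      rw [sub_cons, one_conv, ih w (by omega)]
      rfl

theorem sub_zero_right : ∀ (n : ℕ) (w : List α), w.length ≤ n → ∀ g : List α → R,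
    sub g (fun _ => 0) w = 0 := by
  intro n w hw g
  have := sub_lin n w hw g (fun _ => 0) (fun _ => 0) 1
  simp only [one_mul, add_zero] at this
  exact left_eq_add.mp this

theorem sub_one_right (g : List α → R) : ∀ w : List α, sub g one w = one w
  | [] => rfl
  | k :: w => by
      rw [sub_cons, one_cons, show der k (one : List α → R) = fun _ => 0 from rfl,
        conv_congr_right w g (h' := fun _ => 0)
        fun u _ => sub_zero_right u.length u le_rfl g]
      have := conv_lin_right w g (fun _ => 0) (fun _ => 0) 1
      simp only [one_mul, add_zero] at this
      exact left_eq_add.mp this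

/-- Iterates defining the cumulant series and its inverse. -/
def tab (M : List α → R) : ℕ → (List α → R) × (List α → R)
  | 0 => (one, one)
  | n + 1 =>
    let G := (tab M n).2
    let C : List α → R := fun w => match w with
      | [] => 1
      | k :: u => conv G (sub G (der k M)) u
    (C, fun w => match w with
      | [] => 1
      | k :: u => -conv (der k C) G u)

/-- Free cumulants of the moments `M` (on words; `1` on the empty word). -/
def cum (M : List α → R) (w : List α) : R := (tab M w.length).1 w

/-- The inverse of the cumulant series. -/
def cumInv (M : List α → R) (w : List α) : R := (tab M w.length).2 w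

theorem tab_stable (M : List α → R) : ∀ (n : ℕ) (w : List α), w.length ≤ n →
    (tab M (n + 1)).1 w = (tab M n).1 w ∧ (tab M (n + 1)).2 w = (tab M n).2 w := by
  intro n
  induction n with
  | zero =>
    intro w hw
    obtain rfl := List.eq_nil_of_length_eq_zero (Nat.le_zero.1 hw)
    exact ⟨rfl, rfl⟩
  | succ n ih =>
    intro w hw
    cases w with
    | nil => exact ⟨rfl, rfl⟩
    | cons k w =>
      simp only [List.length_cons] at hw
      have hG : ∀ u : List α, u.length ≤ w.length → (tab M (n + 1)).2 u = (tab M n).2 u :=
        fun u hu => (ih u (by omega)).2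
      have hC : ∀ u : List α, u.length ≤ w.length →
          (tab M (n + 1 + 1)).1 (k :: u) = (tab M (n + 1)).1 (k :: u) := fun u hu =>
        conv_congr u (fun v hv => hG v (by omega)) fun v hv =>
          sub_congr v.length v le_rfl (fun x hx => hG x (by omega)) fun _ _ => rfl
      exact ⟨hC w le_rfl, congrArg Neg.neg (conv_congr w hC hG)⟩

theorem tab_eq (M : List α → R) {n : ℕ} {w : List α} (h : w.length ≤ n) :
    (tab M n).1 w = cum M w ∧ (tab M n).2 w = cumInv M w := by
  induction n, h using Nat.le_induction with
  | base => exact ⟨rfl, rfl⟩
  | succ n hn ih => exact ⟨(tab_stable M n w hn).1.trans ih.1, (tab_stable M n w hn).2.trans ih.2⟩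

@[simp] theorem cum_nil (M : List α → R) : cum M [] = 1 := rfl
@[simp] theorem cumInv_nil (M : List α → R) : cumInv M [] = 1 := rfl

theorem cum_cons (M : List α → R) (k : α) (w : List α) :
    cum M (k :: w) = conv (cumInv M) (sub (cumInv M) (der k M)) w :=
  conv_congr w (fun _ hu => (tab_eq M hu).2) fun u hu =>
    sub_congr u.length u le_rfl (fun v hv => (tab_eq M (by omega)).2) fun _ _ => rfl

theorem cumInv_cons (M : List α → R) (k : α) (w : List α) :
    cumInv M (k :: w) = -conv (der k (cum M)) (cumInv M) w :=
  congrArg Neg.neg (conv_congr w
    (fun u hu => (tab_eq M (show (k :: u).length ≤ w.length + 1 by simp; omega)).1)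
    fun _ hu => (tab_eq M hu).2)

theorem cum_eq_sub {M : List α → R} (h0 : M [] = 1) (w : List α) :
    cum M w = sub (cumInv M) M w := by
  cases w with
  | nil => simp [h0]
  | cons k w => rw [cum_cons, sub_cons]

theorem conv_cum_cumInv (M : List α → R) : ∀ w, conv (cum M) (cumInv M) w = one w
  | [] => by simp [conv_nil]
  | k :: w => by rw [conv_cons, cumInv_cons, cum_nil, one_cons]; ring

/-- The moment-cumulant relation. -/
theorem sub_cum {M : List α → R} (h0 : M [] = 1) : ∀ w, sub M (cum M) w = M w := by
  suffices h : ∀ (n : ℕ) (w : List α), w.length ≤ n → sub M (cum M) w = M w from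
    fun w => h _ w le_rfl
  intro n
  induction n with
  | zero =>
    intro w hw
    obtain rfl := List.eq_nil_of_length_eq_zero (Nat.le_zero.1 hw)
    simp [h0]
  | succ n ih =>
    intro w hw
    have hh : ∀ u : List α, u.length ≤ n → conv M (sub M (cumInv M)) u = one u := fun u hu => by
      rw [← conv_congr_left u _ (fun v hv => ih v (by omega)),
        ← sub_conv u.length u le_rfl, sub_congr u.length u le_rfl (fun _ _ => rfl)
          (fun v _ => conv_cum_cumInv M v), sub_one_right]
    rw [sub_congr w.length w le_rfl (fun _ _ => rfl) (fun v _ => cum_eq_sub h0 v),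
      sub_sub w.length w le_rfl,
      sub_congr w.length w le_rfl (fun v hv => hh v (by omega)) (fun _ _ => rfl),
      sub_one_left w.length w le_rfl]

end

end Vale.Agent.P087.Cum
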