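import Mathlib
import Vale.Agent.P087.Basic
import Vale.Agent.P087.Cum.Series

/-!
# The majorant for the cumulant series
-/

namespace Vale.Agent.P087.Cum

open Finset

noncomputable section

variable {α : Type} [Fintype α]

/-- `ℓ²` norm in degree `L` of a family of series. -/
def N {ι : Type} [Fintype ι] (L : ℕ) (F : ι → List α → ℂ) : ℝ :=
  Real.sqrt (∑ i, gradeSq (F i) L)

theorem gradeSq_nonneg : ∀ (L : ℕ) (F : List α → ℂ), 0 ≤ gradeSq F L
  | 0, F => by simp [gradeSq]
  | L + 1, F => by
      simp only [gradeSq]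
      exact Finset.sum_nonneg fun i _ => gradeSq_nonneg L _

theorem gradeSq_mul (c : ℂ) : ∀ (L : ℕ) (F : List α → ℂ),
    gradeSq (fun u => c * F u) L = ‖c‖ ^ 2 * gradeSq F L
  | 0, F => by simp [gradeSq, mul_pow]
  | L + 1, F => by
      simp only [gradeSq, Finset.mul_sum]
      exact Finset.sum_congr rfl fun i _ => gradeSq_mul c L _

variable {ι κ : Type} [Fintype ι] [Fintype κ]

theorem N_nonneg (L : ℕ) (F : ι → List α → ℂ) : 0 ≤ N L F := Real.sqrt_nonneg _

theorem N_succ (L : ℕ) (F : ι → List α → ℂ) :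
    N (L + 1) F = N L (fun q : ι × α => der q.2 (F q.1)) := by
  simp only [N, gradeSq, Fintype.sum_prod_type]
  rfl

theorem N_equiv (L : ℕ) (e : κ ≃ ι) (F : ι → List α → ℂ) : N L (fun a => F (e a)) = N L F := by
  simp only [N]
  rw [Equiv.sum_comp e fun i => gradeSq (F i) L]

theorem N_add_zero (F G : ι → List α → ℂ) :
    N 0 (fun i u => F i u + G i u) ≤ N 0 F + N 0 G := by
  have := norm_add_le (WithLp.toLp 2 (fun i => F i []) : EuclideanSpace ℂ ι)
    (WithLp.toLp 2 (fun i => G i []) : EuclideanSpace ℂ ι)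
  simpa [EuclideanSpace.norm_eq, N, gradeSq] using this

theorem N_add_le : ∀ (L : ℕ) {ι : Type} [Fintype ι] (F G : ι → List α → ℂ),
    N L (fun i u => F i u + G i u) ≤ N L F + N L G
  | 0, _, _, F, G => N_add_zero F G
  | L + 1, _, _, F, G => by
      rw [N_succ, N_succ, N_succ]
      exact N_add_le L _ _

theorem N_neg (L : ℕ) (F : ι → List α → ℂ) : N L (fun i u => -F i u) = N L F := by
  simp only [N]
  congr 1
  refine Finset.sum_congr rfl fun i _ => ?_
  simpa using gradeSq_mul (-1) L (F i)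

theorem N_tensor (L : ℕ) (c : κ → ℂ) (F : ι → List α → ℂ) :
    N L (fun p : κ × ι => fun u => c p.1 * F p.2 u)
      = Real.sqrt (∑ a, ‖c a‖ ^ 2) * N L F := by
  simp only [N, gradeSq_mul]
  rw [← Real.sqrt_mul (Finset.sum_nonneg fun a _ => sq_nonneg _), Fintype.sum_prod_type,
    Finset.sum_mul_sum]

theorem N_conv : ∀ (L : ℕ) {κ ι : Type} [Fintype κ] [Fintype ι] (G : κ → List α → ℂ)
    (F : ι → List α → ℂ),
    N L (fun p : κ × ι => conv (G p.1) (F p.2)) ≤ ∑ i ∈ range (L + 1), N i G * N (L - i) F := by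
  intro L
  induction L with
  | zero =>
    intro κ ι _ _ G F
    rw [Finset.sum_range_one]
    simp only [N, gradeSq, conv_nil, norm_mul, mul_pow, Nat.sub_zero]
    rw [← Real.sqrt_mul (Finset.sum_nonneg fun a _ => sq_nonneg _), Fintype.sum_prod_type,
      Finset.sum_mul_sum]
  | succ L ih =>
    intro κ ι _ _ G F
    rw [N_succ]
    refine (N_add_le L (fun q : (κ × ι) × α => fun u => G q.1.1 [] * der q.2 (F q.1.2) u)
      (fun q : (κ × ι) × α => conv (der q.2 (G q.1.1)) (F q.1.2))).trans ?_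
    rw [Finset.sum_range_succ' _ (L + 1)]
    simp only [Nat.succ_sub_succ, Nat.sub_zero]
    rw [add_comm]
    refine add_le_add ?_ ?_
    · let e : (κ × ι) × α ≃ (κ × α) × ι :=
        { toFun := fun q => ((q.1.1, q.2), q.1.2)
          invFun := fun q => ((q.1.1, q.2), q.1.2)
          left_inv := fun _ => rfl
          right_inv := fun _ => rfl }
      refine le_trans (le_of_eq (N_equiv L e
        (fun p : (κ × α) × ι => conv (der p.1.2 (G p.1.1)) (F p.2)))) ?_
      refine (ih (fun p : κ × α => der p.2 (G p.1)) F).trans (le_of_eq ?_)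
      exact Finset.sum_congr rfl fun i _ => by rw [N_succ]
    · refine le_trans (le_of_eq (N_equiv L (Equiv.prodAssoc κ ι α)
        (fun p : κ × ι × α => fun u => G p.1 [] * der p.2.2 (F p.2.1) u))) ?_
      rw [N_tensor L (fun a => G a []) (fun p : ι × α => der p.2 (F p.1)), ← N_succ]
      simp [N, gradeSq]

/-- A series as a family with one member. -/
def sgl (f : List α → ℂ) : Unit → List α → ℂ := fun _ => f

theorem N_conv_sgl (L : ℕ) (g : List α → ℂ) (F : ι → List α → ℂ) :
    N L (fun i => conv g (F i)) ≤ ∑ i ∈ range (L + 1), N i (sgl g) * N (L - i) F :=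
  le_trans (le_of_eq (N_equiv L (Equiv.punitProd ι) (fun i => conv g (F i))).symm)
    (N_conv L (sgl g) F)

/-- Weighted truncated sum of the norms. -/
def P (x : ℝ) (L : ℕ) (F : ι → List α → ℂ) : ℝ := ∑ l ∈ range (L + 1), x ^ l * N l F

theorem P_nonneg {x : ℝ} (hx : 0 ≤ x) (L : ℕ) (F : ι → List α → ℂ) : 0 ≤ P x L F :=
  Finset.sum_nonneg fun _ _ => mul_nonneg (pow_nonneg hx _) (N_nonneg _ _)

theorem P_mono {x : ℝ} (hx : 0 ≤ x) (L : ℕ) (F : ι → List α → ℂ) : P x L F ≤ P x (L + 1) F := by
  rw [P, P, Finset.sum_range_succ _ (L + 1)]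
  exact le_add_of_nonneg_right (mul_nonneg (pow_nonneg hx _) (N_nonneg _ _))

theorem sum_conv_le {x : ℝ} (hx : 0 ≤ x) (L : ℕ) (a b : ℕ → ℝ) (ha : ∀ i, 0 ≤ a i)
    (hb : ∀ i, 0 ≤ b i) (c : ℕ → ℝ) (hc : ∀ l ≤ L, c l ≤ ∑ i ∈ range (l + 1), a i * b (l - i)) :
    ∑ l ∈ range (L + 1), x ^ l * c l
      ≤ (∑ i ∈ range (L + 1), x ^ i * a i) * ∑ j ∈ range (L + 1), x ^ j * b j := by
  calc ∑ l ∈ range (L + 1), x ^ l * c l
      ≤ ∑ l ∈ range (L + 1), ∑ i ∈ range (l + 1), (x ^ i * a i) * (x ^ (l - i) * b (l - i)) := by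
        refine Finset.sum_le_sum fun l hl => ?_
        refine (mul_le_mul_of_nonneg_left (hc l (Nat.lt_succ_iff.1 (mem_range.1 hl)))
          (pow_nonneg hx l)).trans (le_of_eq ?_)
        rw [Finset.mul_sum]
        refine Finset.sum_congr rfl fun i hi => ?_
        rw [show x ^ l = x ^ i * x ^ (l - i) by
          rw [← pow_add, Nat.add_sub_cancel' (Nat.lt_succ_iff.1 (mem_range.1 hi))]]
        ring
    _ = ∑ i ∈ range (L + 1), ∑ j ∈ range (L + 1 - i), (x ^ i * a i) * (x ^ j * b j) :=
        Finset.sum_range_diag_flip (L + 1) fun i j => (x ^ i * a i) * (x ^ j * b j)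
    _ ≤ _ := by
        rw [Finset.sum_mul_sum]
        refine Finset.sum_le_sum fun i _ => ?_
        refine Finset.sum_le_sum_of_subset_of_nonneg
          (fun j hj => mem_range.2 ((mem_range.1 hj).trans_le (Nat.sub_le _ _))) fun j _ _ => ?_
        exact mul_nonneg (mul_nonneg (pow_nonneg hx _) (ha _)) (mul_nonneg (pow_nonneg hx _) (hb _))

theorem P_sub {x : ℝ} (hx : 0 ≤ x) (g : List α → ℂ) : ∀ (L : ℕ) {ι : Type} [Fintype ι]
    (F : ι → List α → ℂ),
    P x L (fun i => sub g (F i)) ≤ ∑ m ∈ range (L + 1), N m F * (x * P x L (sgl g)) ^ m := by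
  intro L
  induction L with
  | zero =>
    intro ι _ F
    simp [P, N, gradeSq]
  | succ L ih =>
    intro ι _ F
    have hg0 : 0 ≤ x * P x L (sgl g) := mul_nonneg hx (P_nonneg hx _ _)
    have hstep : ∀ l, N (l + 1) (fun i => sub g (F i)) ≤ ∑ i ∈ range (l + 1),
        N i (sgl g) * N (l - i) (fun q : ι × α => sub g (der q.2 (F q.1))) := by
      intro l
      have he : (fun q : ι × α => der q.2 (sub g (F q.1)))
          = fun q : ι × α => conv g (sub g (der q.2 (F q.1))) :=
        funext fun q => funext fun u => sub_cons g (F q.1) q.2 u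
      rw [N_succ, he]
      exact N_conv_sgl l g (fun q : ι × α => sub g (der q.2 (F q.1)))
    have h1 := sum_conv_le hx L (fun i => N i (sgl g))
      (fun j => N j (fun q : ι × α => sub g (der q.2 (F q.1)))) (fun i => N_nonneg _ _)
      (fun j => N_nonneg _ _) (fun l => N (l + 1) (fun i => sub g (F i))) fun l _ => hstep l
    have h2 := ih (fun q : ι × α => der q.2 (F q.1))
    change _ ≤ P x L (sgl g) * P x L (fun q : ι × α => sub g (der q.2 (F q.1))) at h1
    rw [P, Finset.sum_range_succ' _ (L + 1), Finset.sum_range_succ' _ (L + 1)]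
    simp only [pow_zero, one_mul, mul_one]
    refine add_le_add ?_ (le_of_eq (by simp [N, gradeSq]))
    calc ∑ l ∈ range (L + 1), x ^ (l + 1) * N (l + 1) (fun i => sub g (F i))
        = x * ∑ l ∈ range (L + 1), x ^ l * N (l + 1) (fun i => sub g (F i)) := by
          rw [Finset.mul_sum]; exact Finset.sum_congr rfl fun l _ => by ring
      _ ≤ x * (P x L (sgl g) * ∑ m ∈ range (L + 1),
            N m (fun q : ι × α => der q.2 (F q.1)) * (x * P x L (sgl g)) ^ m) :=
          mul_le_mul_of_nonneg_left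
            (h1.trans (mul_le_mul_of_nonneg_left h2 (P_nonneg hx _ _))) hx
      _ ≤ ∑ m ∈ range (L + 1), N (m + 1) F * (x * P x (L + 1) (sgl g)) ^ (m + 1) := by
          rw [← mul_assoc, Finset.mul_sum]
          refine Finset.sum_le_sum fun m _ => ?_
          rw [N_succ, mul_left_comm, ← pow_succ']
          exact mul_le_mul_of_nonneg_left (pow_le_pow_left₀ hg0
            (mul_le_mul_of_nonneg_left (P_mono hx L _) hx) _) (N_nonneg _ _)

theorem cum_majorant (M : List α → ℂ) {ρ x : ℝ} (hρ : 0 ≤ ρ) (hx : 0 ≤ x) (hρx : ρ * x = 1 / 8)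
    (hM : ∀ m, N m (sgl M) ≤ ρ ^ m) :
    ∀ L, ∑ l ∈ range L, x ^ (l + 1) * N (l + 1) (sgl (cum M)) ≤ 9 / 50 := by
  intro L
  induction L with
  | zero => norm_num
  | succ L ih =>
    set A := ∑ l ∈ range L, x ^ (l + 1) * N (l + 1) (sgl (cum M)) with hA
    set PG := P x L (sgl (cumInv M)) with hPG
    have hG : ∀ l, N (l + 1) (sgl (cumInv M)) ≤ ∑ i ∈ range (l + 1),
        N (i + 1) (sgl (cum M)) * N (l - i) (sgl (cumInv M)) := by
      intro l
      have he : (fun q : Unit × α => der q.2 (sgl (cumInv M) q.1))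
          = fun q : Unit × α => fun u => -conv (der q.2 (cum M)) (cumInv M) u :=
        funext fun q => funext fun u => cumInv_cons M q.2 u
      rw [N_succ, he, N_neg]
      refine le_trans (le_of_eq ?_) (le_trans (N_conv l (fun q : Unit × α => der q.2 (cum M))
        (sgl (cumInv M))) (le_of_eq ?_))
      · exact (N_equiv l (Equiv.prodPUnit (Unit × α))
          (fun q : Unit × α => conv (der q.2 (cum M)) (cumInv M))).symm
      · exact Finset.sum_congr rfl fun i _ => by rw [N_succ]; rfl
    have hPG0 : 0 ≤ PG := P_nonneg hx _ _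
    have hN0 : N 0 (sgl (cumInv M)) = 1 := by simp [N, gradeSq, sgl]
    have hPG1 : PG ≤ 1 + A * PG := by
      rcases L with - | L
      · simp [hPG, hA, P, hN0]
      · have h1 := sum_conv_le hx L (fun i => N (i + 1) (sgl (cum M)))
          (fun j => N j (sgl (cumInv M))) (fun i => N_nonneg _ _) (fun j => N_nonneg _ _)
          (fun l => N (l + 1) (sgl (cumInv M))) fun l _ => hG l
        change _ ≤ _ * P x L (sgl (cumInv M)) at h1
        rw [hPG, hA, P, Finset.sum_range_succ' _ (L + 1), hN0, pow_zero, one_mul, add_comm]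
        refine add_le_add le_rfl ?_
        rw [show (∑ l ∈ range (L + 1), x ^ (l + 1) * N (l + 1) (sgl (cumInv M)))
            = x * ∑ l ∈ range (L + 1), x ^ l * N (l + 1) (sgl (cumInv M)) by
          rw [Finset.mul_sum]; exact Finset.sum_congr rfl fun l _ => by ring,
          show (∑ l ∈ range (L + 1), x ^ (l + 1) * N (l + 1) (sgl (cum M)))
            = x * ∑ l ∈ range (L + 1), x ^ l * N (l + 1) (sgl (cum M)) by
          rw [Finset.mul_sum]; exact Finset.sum_congr rfl fun l _ => by ring, mul_assoc]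
        refine mul_le_mul_of_nonneg_left (h1.trans ?_) hx
        refine mul_le_mul_of_nonneg_left ((P_mono hx L (sgl (cumInv M))).trans (le_of_eq ?_))
          (Finset.sum_nonneg fun i _ => mul_nonneg (pow_nonneg hx _) (N_nonneg _ _))
        rw [P, Finset.sum_range_succ' _ (L + 1), hN0, pow_zero, one_mul, add_comm, Finset.mul_sum]
        refine congrArg (fun t : ℝ => 1 + t) (Finset.sum_congr rfl fun l _ => by ring)
    have hA0 : 0 ≤ A :=
      Finset.sum_nonneg fun i _ => mul_nonneg (pow_nonneg hx _) (N_nonneg _ _)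
    have hPG2 : PG ≤ 50 / 41 := by nlinarith
    have hC : ∀ l, N (l + 1) (sgl (cum M)) ≤ ∑ i ∈ range (l + 1), N i (sgl (cumInv M)) *
        N (l - i) (fun q : Unit × α => sub (cumInv M) (der q.2 M)) := by
      intro l
      have he : (fun q : Unit × α => der q.2 (sgl (cum M) q.1))
          = fun q : Unit × α => conv (cumInv M) (sub (cumInv M) (der q.2 M)) :=
        funext fun q => funext fun u => cum_cons M q.2 u
      rw [N_succ, he]
      exact N_conv_sgl l (cumInv M) (fun q : Unit × α => sub (cumInv M) (der q.2 M))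
    have h1 := sum_conv_le hx L (fun i => N i (sgl (cumInv M)))
      (fun j => N j (fun q : Unit × α => sub (cumInv M) (der q.2 M))) (fun i => N_nonneg _ _)
      (fun j => N_nonneg _ _) (fun l => N (l + 1) (sgl (cum M))) fun l _ => hC l
    change _ ≤ PG * P x L (fun q : Unit × α => sub (cumInv M) (der q.2 M)) at h1
    have h2 := P_sub hx (cumInv M) L (fun q : Unit × α => der q.2 M)
    rw [← hPG] at h2
    set q := ρ * (x * PG) with hq
    have hq0 : 0 ≤ q := mul_nonneg hρ (mul_nonneg hx hPG0)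
    have hq1 : q ≤ 25 / 164 := by
      rw [hq, ← mul_assoc, hρx]
      linarith
    calc ∑ l ∈ range (L + 1), x ^ (l + 1) * N (l + 1) (sgl (cum M))
        = x * ∑ l ∈ range (L + 1), x ^ l * N (l + 1) (sgl (cum M)) := by
          rw [Finset.mul_sum]; exact Finset.sum_congr rfl fun l _ => by ring
      _ ≤ x * (PG * ∑ m ∈ range (L + 1), ρ ^ (m + 1) * (x * PG) ^ m) := by
          refine mul_le_mul_of_nonneg_left (h1.trans (mul_le_mul_of_nonneg_left (h2.trans ?_) hPG0))
            hx
          refine Finset.sum_le_sum fun m _ => mul_le_mul_of_nonneg_right ?_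
            (pow_nonneg (mul_nonneg hx hPG0) _)
          exact (le_of_eq (N_succ m (sgl M)).symm).trans (hM (m + 1))
      _ ≤ 9 / 50 := by
          rw [show x * (PG * ∑ m ∈ range (L + 1), ρ ^ (m + 1) * (x * PG) ^ m)
              = q * ∑ m ∈ range (L + 1), q ^ m by
            rw [Finset.mul_sum, Finset.mul_sum, Finset.mul_sum]
            exact Finset.sum_congr rfl fun m _ => by rw [hq, mul_pow]; ring]
          have h3 := mul_neg_geom_sum q (L + 1)
          have h4 : 0 ≤ q ^ (L + 1) := pow_nonneg hq0 _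
          have h5 : 0 ≤ ∑ m ∈ range (L + 1), q ^ m :=
            Finset.sum_nonneg fun m _ => pow_nonneg hq0 _
          nlinarith

end

end Vale.Agent.P087.Cum
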